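import Crest.Agent.X212.Gl67.Defs
import Crest.Agent.X212.Mon62.Lca
import Crest.Agent.X212.Gla92.US
import Crest.Agent.X212.An.Job

-- ▼ part X212/Gla92/Dm
section

/-!
# Row 212, GL (helper92): families of sides, uniform hypotheses, the Banach models

`Un s δ r₀`: uniform geometry of the sides `s i`; `dm`: the models for all weight profiles.
-/

set_option autoImplicit false
set_option linter.unusedSectionVars false
set_option maxSynthPendingDepth 3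
noncomputable section
open scoped Manifold ContDiff Topology InnerProductSpace ENNReal NNReal
open MeasureTheory Set Function Filter Real Metric

namespace Crest.Agent.X212.Gla92
open An Sob92 Prm93 Mod61 Map77 Mon62 Mon62.Dm Gl67
open Ell97 (UB)
open Std94 (Kl)

variable {E : Type} [NormedAddCommGroup E] [NormedSpace ℝ E] [FiniteDimensional ℝ E]
  [MeasurableSpace E] [BorelSpace E]
  {HM : Type} [TopologicalSpace HM] {I : ModelWithCorners ℝ E HM} [I.Boundaryless]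
  {M : Type} [TopologicalSpace M] [ChartedSpace HM M] [IsManifold I ∞ M]
  [MeasurableSpace M] [T2Space M] [BorelSpace M] [SecondCountableTopology M]
  {ι lam h : Type} [Fintype ι] [Fintype lam] [Fintype h]
  {T U Up R : Type} [NormedAddCommGroup T] [NormedSpace ℝ T] [NormedAddCommGroup U]
  [NormedSpace ℝ U] [NormedAddCommGroup Up] [NormedSpace ℝ Up] [NormedAddCommGroup R]
  [NormedSpace ℝ R] {N r n m : ℕ} {Jc : En (Fin N)} {J : Type} {𝔉 : J → Fam I M ι lam T}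
  {A : Type} [NormedAddCommGroup A] [NormedSpace ℝ A]

theorem bn_reix {J J' : Type} {X : J → Type} [∀ i, NormedAddCommGroup (X i)]
    [∀ i, NormedSpace ℝ (X i)] {B : ∀ i, Set (X i)} (φ : J' → J) (n : ℕ) :
    ∀ {Z : J → Type} [∀ i, NormedAddCommGroup (Z i)] [∀ i, NormedSpace ℝ (Z i)]
      {f : ∀ i, X i → Z i}, Bn B n f → Bn (fun i => B (φ i)) n fun i => f (φ i) := by
  induction n with
  | zero => exact fun ⟨K, hK⟩ => ⟨K, fun i => hK _⟩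
  | succ n ih => exact fun ⟨⟨K, hK⟩, h⟩ => ⟨⟨K, fun i => hK _⟩, ih h⟩

theorem wm_mono {μ ν : Measure M} {c : ℝ≥0} (h : μ ≤ c • ν) (ψ : M → ℝ) :
    Nk89.wm μ ψ ≤ c • Nk89.wm ν ψ := by
  rw [Nk89.wm, Nk89.wm, ENNReal.smul_def, ← withDensity_smul_measure]
  exact Measure.le_iff.2 fun s hs => by
    rw [withDensity_apply _ hs, withDensity_apply _ hs]
    exact lintegral_mono' (Measure.restrict_mono le_rfl h) le_rfl

theorem dens_le {μ : Measure M} {ρ : M → ℝ} {C : ℝ} (h : ∀ x, ‖ρ x‖ ≤ C) :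
    (μ.withDensity fun x => ENNReal.ofReal (ρ x)) ≤ C.toNNReal • μ := by
  have : (μ.withDensity fun x => ENNReal.ofReal (ρ x)) ≤ μ.withDensity fun _ => ENNReal.ofReal C :=
    withDensity_mono (.of_forall fun x => ENNReal.ofReal_le_ofReal ((le_abs_self _).trans (h x)))
  rwa [withDensity_const] at this

theorem smul_mono {μ : Measure M} {c c' : ℝ≥0} (h : c ≤ c') : c • μ ≤ c' • μ :=
  Measure.le_iff'.2 fun s => by
    simp only [Measure.coe_nnreal_smul_apply]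
    exact mul_le_mul_left (ENNReal.coe_le_coe.2 h) _

theorem ub_congr {F : J → Pre I M ι} {f g : J → M → A} (h : UB F f) (e : ∀ i, g i = f i) :
    UB F g := funext e ▸ h

section prod
variable {X₁ X₂ : J → Type} [∀ i, NormedAddCommGroup (X₁ i)] [∀ i, NormedSpace ℝ (X₁ i)]
  [∀ i, NormedAddCommGroup (X₂ i)] [∀ i, NormedSpace ℝ (X₂ i)] {X : J → Type}
  [∀ i, NormedAddCommGroup (X i)] [∀ i, NormedSpace ℝ (X i)] {Q : Rg X} {f : ∀ i, X i → X₁ i × X₂ i}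

theorem uc_fst (h : UC Q f) : UC Q fun i v => (f i v).1 :=
  h.clm (L := fun i => ContinuousLinearMap.fst ℝ (X₁ i) (X₂ i))
    ⟨1, fun _ => ContinuousLinearMap.norm_fst_le _ _ _⟩

theorem uc_snd (h : UC Q f) : UC Q fun i v => (f i v).2 :=
  h.clm (L := fun i => ContinuousLinearMap.snd ℝ (X₁ i) (X₂ i))
    ⟨1, fun _ => ContinuousLinearMap.norm_snd_le _ _ _⟩

end prod

/-- weight profiles -/
structure Pf where
  x : ℝ
  y : ℝ
  z : ℝ
  hx : 0 ≤ x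
  hy : 0 ≤ y
  hz : y ≤ z

/-- the basic profile -/
@[reducible] def p0 : Pf := ⟨0, 0, 0, le_rfl, le_rfl, le_rfl⟩

variable (𝔉) in
/-- the frames without weight -/
abbrev P0 (i : J) : Pre I M ι := (𝔉 i).F0.toPre

variable (𝔉) in
/-- smooth in the parameter, uniformly on the ball -/
structure UT (r₀ : ℝ) (f : J → T → M → A) : Prop where
  sb : ∀ i, SB (P0 𝔉 i) (𝔉 i).Q (f i)
  bn : ∀ k n, Bn (X := fun _ => T) (fun _ => closedBall 0 r₀) n fun i t => toB (P0 𝔉 i) k (f i t)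

variable (s : ∀ i, Sid (𝔉 i) N Jc U Up R)

variable (𝔉) in
/-- bounded with supports of bounded volume -/
structure Bv0 (f : J → M → A) : Prop where
  ub : UB (P0 𝔉) f
  hc : ∀ i, HasCompactSupport (f i)
  vol : ∃ K : ℝ≥0, ∀ i, (𝔉 i).F0.μ (tsupport (f i)) ≤ K

/-- bumps at bounded height -/
structure Bu (f : J → M → A) : Prop extends Bv0 𝔉 f where
  ht : ∃ a, ∀ i, ∀ x ∈ tsupport (f i), (s i).ht x ≤ a

/-- uniform geometry -/
structure Un (δ r₀ : ℝ) : Prop where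
  ok : ∀ i, (s i).OK
  δ0 : 0 ≤ δ
  r0 : 0 ≤ r₀
  sub : ∀ i, closedBall 0 r₀ ⊆ (𝔉 i).Q
  tame : ∃ C, ∀ i, (𝔉 i).F0.Tame C
  o : ∀ a b c d, UB (P0 𝔉) fun i => (𝔉 i).B.o a b c d
  p : UB (P0 𝔉) fun i => (s i).p
  ρ : ∀ a, UB (P0 𝔉) fun i => (s i).ρ a
  j : UB (P0 𝔉) fun i => (s i).j
  A0 : ∀ a, UB (P0 𝔉) fun i => (s i).A0 a
  Φ0 : UB (P0 𝔉) fun i => (s i).Φ0
  b : UB (P0 𝔉) fun i => (s i).b
  dr : ∀ a, UB (P0 𝔉) fun i => (s i).dr a
  ht : ∀ a, UB (P0 𝔉) fun i => (P0 𝔉 i).D a (s i).ht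
  S : ∀ a b, UT 𝔉 r₀ fun i t x => (𝔉 i).S t x a b
  Si : ∀ a b, UT 𝔉 r₀ fun i t x => (𝔉 i).Si t x a b
  cf : ∀ a b k, UT 𝔉 r₀ fun i t x => (𝔉 i).cf t x a b k
  la : ∀ a, UT 𝔉 r₀ fun i t x => (𝔉 i).la t x a
  c : ∀ a b k, UT 𝔉 r₀ fun i t => ((𝔉 i).G t).F.c a b k
  dv : ∀ a, UT 𝔉 r₀ fun i t => ((𝔉 i).G t).F.dv a
  dens : ∃ ρ, UT 𝔉 r₀ ρ ∧ ∀ i, ∀ t ∈ (𝔉 i).Q, (∀ x, 0 ≤ ρ i t x) ∧
    ((𝔉 i).G t).F.μ = (𝔉 i).F0.μ.withDensity fun x => ENNReal.ofReal (ρ i t x)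
  low : ∀ i, ∀ t ∈ (𝔉 i).Q, ∃ c : ℝ≥0, (𝔉 i).F0.μ ≤ c • ((𝔉 i).G t).F.μ
  lowU : ∃ c : ℝ≥0, ∀ i, ∀ t ∈ closedBall (0 : T) r₀, (𝔉 i).F0.μ ≤ c • ((𝔉 i).G t).F.μ
  loc : ∃ χ : J → M → ℝ, Bu s χ ∧ ∀ i, (∀ a b, Off (𝔉 i).Q (χ i) fun t x => (𝔉 i).S t x a b) ∧
    (∀ a b k, Off (𝔉 i).Q (χ i) fun t x => (𝔉 i).cf t x a b k) ∧
    (∀ a, Off (𝔉 i).Q (χ i) fun t x => (𝔉 i).la t x a) ∧
    (∀ a b k, Off (𝔉 i).Q (χ i) fun t => ((𝔉 i).G t).F.c a b k) ∧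
    ∀ a, Off (𝔉 i).Q (χ i) fun t => ((𝔉 i).G t).F.dv a
  slope : ∀ i, ∀ t ∈ (𝔉 i).Q, ∀ x, 16 * δ ^ 2 * ∑ a, ((𝔉 i).G t).F.D a (s i).ht x ^ 2 ≤ 1

/-- the weight -/
abbrev wg (δ : ℝ) (z : J × Pf) (x : M) : ℝ := pr δ z.2.x z.2.y z.2.z ((s z.1).ht x)

/-- the weighted frames -/
abbrev Fp (δ : ℝ) (z : J × Pf) : Fr I M ι :=
  (Nk89.wtF (𝔉 z.1) (fun x => pr δ z.2.x z.2.y z.2.z ((s z.1).ht x)) ((s z.1).sm_pr δ _ _ _)).F0

variable (r h) in
/-- the models -/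
abbrev XX (δ : ℝ) (k : ℕ) (z : J × Pf) : Type :=
  (Fp s δ z).H (k + 1) (s z.1).bd.pC × PP T U r h N

variable (r h) in
/-- the smooth points -/
abbrev YY (z : J × Pf) : Type := Sec I (s z.1).bd.pC × {q : PP T U r h N // q.1 ∈ (𝔉 z.1).Q}

theorem wt_Fp (δ : ℝ) (z : J × Pf) : Nk89.Wt (𝔉 z.1).F0 (Fp s δ z) (wg s δ z) :=
  Nk89.wt_wt _ ((s z.1).sm_pr δ _ _ _)

variable {s} {δ r₀ : ℝ}

theorem UT.ub {f : J → T → M → A} (h : UT 𝔉 r₀ f) (e : ∀ i, closedBall 0 r₀ ⊆ (𝔉 i).Q) :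
    UB (fun q : (J × Pf) × closedBall (0 : T) r₀ => P0 𝔉 q.1.1) fun q => f q.1.1 q.2 := by
  choose K hK using fun k => h.bn k 0
  refine ⟨K, fun q => ⟨Cb.sm ((h.sb _).cb _ (e _ q.2.2)), fun k => ?_⟩⟩
  have := CB_mono (B.CB _) (hK k q.1.1 _ q.2.2)
  rwa [fn_toB ((h.sb _).cb _ (e _ q.2.2))] at this

namespace Un
variable (H : Un s δ r₀)
include H

theorem fam (i : J) : (𝔉 i).OK := (H.ok i).fam

theorem wg0 (z : J × Pf) (x : M) : 0 ≤ wg s δ z x := pr_nonneg H.δ0 z.2.hz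

theorem ub_wg (a : ι) : UB (fun z : J × Pf => P0 𝔉 z.1) fun z => (P0 𝔉 z.1).D a (wg s δ z) :=
  let ⟨_, hC⟩ := UB.unif H.ht; ⟨_, fun z => CBs_pr (s z.1).sh (hC z.1) a⟩

theorem tameW : ∃ C, ∀ z, (Fp s δ z).Tame C :=
  let ⟨_, hC⟩ := H.tame; let ⟨_, hD⟩ := UB.unif H.ub_wg
  ⟨_, fun z => (wt_Fp s δ z).tame (hC z.1) (H.wg0 z) (hD z)⟩

variable (r h) in
/-- the models for all profiles -/
def dm (k : ℕ) (ρ : ℝ≥0) : Dm I M ι (XX h r s δ k) (YY h r s) where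
  U z := {v | v.2.1 ∈ (𝔉 z.1).Q}
  B _ := closedBall 0 √ρ ×ˢ closedBall 0 r₀
  op z := (H.fam _).opn.preimage (f := fun v : XX h r s δ k z => v.2.1) (by fun_prop)
  sub z v hv := H.sub _ (mem_closedBall_zero_iff.2
    ((norm_fst_le v.2).trans (mem_closedBall_zero_iff.1 hv.2)))
  F := Fp s δ
  C := H.tameW.choose
  tame := H.tameW.choose_spec
  pt z y := ((Fp s δ z).toH (k + 1) _ y.1, y.2.1)
  y₀ z := (0, ⟨0, (H.ok _).q0⟩)
  mem _ y := y.2.2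
  dns z v hv := let ⟨a, ha⟩ := exists_seq v.1
    mem_closure_of_tendsto (ha.prodMk_nhds tendsto_const_nhds) (.of_forall fun n =>
      ⟨(a n, ⟨v.2, hv⟩), rfl⟩)
  base z := ⟨by simp, by simpa using H.r0⟩

variable {k : ℕ} {ρ : ℝ≥0}

omit H in
theorem ub0 {f : J → M → A} (h : UB (P0 𝔉) f) :
    UB (fun z : J × Pf => P0 𝔉 z.1) fun z => f z.1 := let ⟨C, h⟩ := h; ⟨C, fun z => h z.1⟩

theorem ubW' {f : J × Pf → M → A} (hf : UB (fun z : J × Pf => P0 𝔉 z.1) f) :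
    UB (H.dm h r k ρ).P f := let ⟨C, h⟩ := hf; ⟨C, fun z => (wt_Fp s δ z).toWtP.CBs.2 (h z)⟩

theorem ubW {f : J → M → A} (hf : UB (P0 𝔉) f) : UB (H.dm h r k ρ).P fun z => f z.1 :=
  H.ubW' (ub0 hf)

theorem uc_id : UC (H.dm h r k ρ).toRg fun _ v => v := UC.id ⟨max √ρ r₀, fun _ _ hv =>
  max_le_max (mem_closedBall_zero_iff.1 hv.1) (mem_closedBall_zero_iff.1 hv.2)⟩

theorem uc_q (L : PP T U r h N →L[ℝ] A) : UC (H.dm h r k ρ).toRg fun _ v => L v.2 :=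
  (uc_snd H.uc_id).clm (Bv.const L)

theorem sc_q (L : PP T U r h N →L[ℝ] A) : (H.dm h r k ρ).Sc fun _ y => L y.2.1 :=
  ⟨_, H.uc_q L, fun _ _ => rfl⟩

theorem uc_t {Z : J × Pf → Type} [∀ i, NormedAddCommGroup (Z i)] [∀ i, NormedSpace ℝ (Z i)]
    {f : ∀ z, T → Z z} (h1 : ∀ z, ContDiffOn ℝ ∞ (f z) (𝔉 z.1).Q)
    (h2 : ∀ n, Bn (fun _ => closedBall 0 r₀) n f) : UC (H.dm h r k ρ).toRg fun z v => f z v.2.1 :=
  UC.cmp (R' := ⟨fun z : J × Pf => (𝔉 z.1).Q, fun _ => closedBall 0 r₀, fun z => (H.fam z.1).opn,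
    fun z => H.sub z.1⟩) ⟨h1, h2⟩ (H.uc_q (ContinuousLinearMap.fst ℝ _ _)) (fun _ _ hv => hv)
    fun _ v hv => mem_closedBall_zero_iff.2
      ((norm_fst_le v.2).trans (mem_closedBall_zero_iff.1 hv.2))

theorem usW {f : J → T → M → A} (hf : UT 𝔉 r₀ f) : (H.dm h r k ρ).US fun z v => f z.1 v.2.1 := by
  have w := fun z => (wt_Fp s δ z).toWtP
  refine ⟨fun z v hv => (w z).Cb.2 ((hf.sb _).cb _ hv), fun l => ?_⟩
  let L : ∀ z : J × Pf, B (P0 𝔉 z.1) l A →L[ℝ] B (Fp s δ z).toPre l A := fun z =>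
    LinearMap.mkContinuous
      { toFun := fun f => B.mk l (B.fn f) ((w z).Cb.2 f.cb)
        map_add' := fun _ _ => rfl
        map_smul' := fun _ _ => rfl } 1 fun f =>
      (B.norm_le (by positivity)).2 ((w z).CB.2 (by simpa using f.CB))
  exact ((H.uc_t (fun z => (hf.sb z.1).sm l) fun n => bn_reix Prod.fst n (hf.bn l n)).clm (L := L)
    ⟨1, fun _ => LinearMap.mkContinuous_norm_le _ zero_le_one _⟩).congr fun z v hv =>
      (eq_toB (g := L z _) (fn_toB ((hf.sb _).cb _ hv))).symm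

theorem a0_bu {V : Type} [NormedAddCommGroup V] [InnerProductSpace ℝ V] [CompleteSpace V] {ε : Prop}
    {j : ℕ} (hj : 4 ≤ j) {f : J → M → V} (hf : Bu s f) :
    (H.dm h r k ρ).A0 ε j fun z _ => f z.1 := by
  obtain ⟨C, hC⟩ := hf.ub
  obtain ⟨K, hK⟩ := hf.vol
  obtain ⟨a, ha⟩ := hf.ht
  refine A0.of_hcs hj (H.ubW hf.ub) (fun z => hf.hc _) ⟨√(exp (2 * (2 * δ * ka a)) *
    ((Fintype.card ι + 1) ^ j * C j ^ 2) * K), fun z => ?_⟩
  have := (N_sec (wt_Fp s δ z).toWtP ⟨f z.1, mem_triv (hC _).1 (hf.hc _)⟩).symm.trans_le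
    ((N_bump ((hC _).2 j) fun x hx => (pr_le H.δ0 z.2.hx z.2.hy).trans (mul_le_mul_of_nonneg_left
      (ka_mono (ha _ x hx)) (by linarith [H.δ0]))).trans (mul_le_mul_right (hK _) _))
  rw [← ENNReal.ofReal_coe_nnreal, ← ENNReal.ofReal_mul (by positivity), q2,
    ENNReal.ofReal_le_ofReal_iff (by positivity), Pre.norm_toH] at this
  exact le_sqrt_of_sq_le this

theorem lcW {f : J → T → M → ℝ} (hf : UT 𝔉 r₀ f) {χ : J → M → ℝ} (hχ : Bu s χ)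
    (e : ∀ i, Off (𝔉 i).Q (χ i) (f i)) : (H.dm h r k ρ).Lc fun z v => f z.1 v.2.1 :=
  Lc.of_cut (H.usW hf) (χ := fun z => χ z.1) (fun _ hj => H.a0_bu hj hχ) fun z y x => by
    by_cases e' : χ z.1 x = 1
    · rw [e', one_smul]
    · have := e _ _ y.2.2 _ (H.ok _).q0 x e'
      change χ z.1 x • (f z.1 y.2.1.1 x - f z.1 0 x) = f z.1 y.2.1.1 x - f z.1 0 x
      rw [this, sub_self, smul_zero]

theorem ff : (H.dm h r k ρ).FF fun z v => ((𝔉 z.1).G v.2.1).F := by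
  obtain ⟨χ, c1, c2⟩ := H.loc
  obtain ⟨σ, r1, r2⟩ := H.dens
  have w := fun z => (wt_Fp s δ z).toWtP
  have e1 : UB (H.dm h r k ρ).P fun z x => exp (-2 * wg s δ z x) := H.ubW' (ub_exp
    (fun z => contMDiff_const.mul (w z).sm) (fun z x => by linarith [H.wg0 z x]) fun a =>
      ub_congr ((UB.const (-2 : ℝ)).smul (H.ub_wg a)) fun z => (P0 𝔉 _).D_smul (w _).sm (-2) a)
  refine ⟨⟨fun a b z v x => (𝔉 z.1).S v.2.1 x a b, fun a b => H.lcW (H.S a b) c1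
    fun i => (c2 i).1 a b, fun z v hv => (H.fam _).mix _ hv⟩,
    fun a => H.lcW (H.dv a) c1 fun i => (c2 i).2.2.2.2 a,
    fun a b c => H.lcW (H.c a b c) c1 fun i => (c2 i).2.2.2.1 a b c,
    fun z y => Mp86.bumps_of_tame _ ((H.fam _).tameG _ y.2.2).choose_spec, _,
    us_smul (US.fixed e1) (H.usW r1), fun z y g => ?_⟩
  change ∫ x, g x ∂((𝔉 z.1).G y.2.1.1).F.μ =
    ∫ x, (exp (-2 * wg s δ z x) • σ z.1 y.2.1.1 x) • g x ∂(Fp s δ z).μ
  rw [(r2 _ _ y.2.2).2, integral_withDensity_eq_integral_toReal_smul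
    (Cb.sm ((r1.sb _).cb _ y.2.2)).continuous.measurable.ennreal_ofReal
    (.of_forall fun _ => ENNReal.ofReal_lt_top), (w z).integral]
  refine integral_congr_ae (.of_forall fun x => ?_)
  simp only [ENNReal.toReal_ofReal ((r2 _ _ y.2.2).1 x), smul_smul, smul_eq_mul]
  rw [← mul_assoc, ← exp_add, neg_mul, add_neg_cancel, exp_zero, one_mul]

theorem dr_wg (z : J × Pf) {t : T} (ht : t ∈ (𝔉 z.1).Q) (x : M) :
    ∑ a, ((𝔉 z.1).G t).F.D a (wg s δ z) x ^ 2 ≤ 1 / 4 := by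
  have h1 : ∀ a, ((𝔉 z.1).G t).F.D a (wg s δ z) x ^ 2 ≤
      (2 * δ) ^ 2 * ((𝔉 z.1).G t).F.D a (s z.1).ht x ^ 2 := fun a => by
    rw [D_comp (s z.1).sh cd_pr, mul_pow, ← sq_abs (deriv _ _)]
    exact mul_le_mul_of_nonneg_right (pow_le_pow_left₀ (abs_nonneg _) (abs_pr_deriv H.δ0) 2)
      (sq_nonneg _)
  have := Finset.sum_le_sum fun a (_ : a ∈ Finset.univ) => h1 a
  rw [← Finset.mul_sum] at this
  linarith [H.slope _ t ht x]

variable {V : Type} [NormedAddCommGroup V] [InnerProductSpace ℝ V] [FiniteDimensional ℝ V]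

theorem re : (H.dm h r k ρ).RE V fun z v => ((𝔉 z.1).G v.2.1).F :=
  re_of_tame H.ff (fun _ y => (H.fam _).tameG _ y.2.2)
    (S' := fun a b z y x => (𝔉 z.1).Si y.2.1.1 x a b) (fun a b => (H.usW (H.Si a b)).sz)
    fun _ y => Mon62.mix_inv (H.fam _) y.2.2

theorem rb : (H.dm h r k ρ).RB V fun z v => ((𝔉 z.1).G v.2.1).F := by
  obtain ⟨σ, r1, r2⟩ := H.dens
  obtain ⟨C₀, hC₀⟩ := H.tame
  obtain ⟨c, hc⟩ := H.lowU
  have w := fun z => (wt_Fp s δ z).toWtP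
  let Z := (J × Pf) × closedBall (0 : T) r₀
  let G : Z → Fr I M ι := fun q => ((𝔉 q.1.1).G q.2).F
  have hq : ∀ q : Z, q.2.1 ∈ (𝔉 q.1.1).Q := fun q => H.sub _ q.2.2
  have up : ∀ {f : Z → M → ℝ}, UB (fun q => P0 𝔉 q.1.1) f → UB (fun q => (G q).toPre) f :=
    ub_mix (fun q => (H.fam _).mix _ (hq q)) fun a b => (H.S a b).ub H.sub
  obtain ⟨C₁, h1⟩ := UB.unif fun a : (ι × ι) × Bool => show UB (fun q : Z => P0 𝔉 q.1.1) fun q x =>
      if a.2 then (𝔉 q.1.1).S q.2 x a.1.1 a.1.2 else (𝔉 q.1.1).Si q.2 x a.1.1 a.1.2 by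
    cases a.2; exacts [(H.Si _ _).ub H.sub, (H.S _ _).ub H.sub]
  obtain ⟨C₂, h2⟩ := UB.unif fun a : ι × ι × ι => (H.c a.1 a.2.1 a.2.2).ub H.sub
  obtain ⟨C₃, h3⟩ := UB.unif fun a => (H.dv a).ub H.sub
  obtain ⟨C₄, h4⟩ := r1.ub H.sub
  obtain ⟨C₅, h5⟩ := UB.unif fun a : ι × ι => up ((H.Si a.1 a.2).ub H.sub)
  obtain ⟨D, hD⟩ := UB.unif fun a => show UB (fun q : Z => (G q).toPre) fun q =>
      (G q).D a (wg s δ q.1) from ub_congr (up (UB.sum fun b => ((H.S a b).ub H.sub).smul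
      (let ⟨C, h⟩ := H.ub_wg b; ⟨C, fun q : Z => h q.1⟩))) fun q => ((H.fam _).mix _ (hq q)).D a _
  let c' := max c (C₄ 0).toNNReal
  have m1 : ∀ q : Z, (G q).μ ≤ c' • (𝔉 q.1.1).F0.μ := fun q => ((r2 _ _ (hq q)).2.trans_le
    (dens_le (CB_bound ((h4 q).2 0)))).trans (smul_mono (le_max_right _ _))
  have m2 : ∀ q : Z, (𝔉 q.1.1).F0.μ ≤ c' • (G q).μ := fun q =>
    (hc _ _ q.2.2).trans (smul_mono (le_max_left _ _))
  obtain ⟨C', hC'⟩ := tame_mix (I := I) (M := M) (ι := ι)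
    (fun k => max (max (C₀ k) (C₁ k)) (max (C₂ k) (C₃ k))) c'
  have tG : ∀ q : Z, (G q).Tame C' := fun q => hC' _ _ _ _
    (Ell97.Tame_mono (hC₀ _) fun _ => by simp) ((H.fam _).mix _ (hq q)) (Mon62.mix_inv (H.fam _) (hq q))
    (fun a b => Ell97.CBs_mono (h1 q ((a, b), true)) fun _ => by simp)
    (fun a b => Ell97.CBs_mono (h1 q ((a, b), false)) fun _ => by simp) (m1 q) (m2 q)
    (fun a b => Ell97.CBs_mono (((H.fam _).G _ (hq q)).P.trans (H.fam _).P0.symm ▸ (hC₀ _).P a b)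
      fun _ => by simp) (fun a b l => Ell97.CBs_mono (h2 q (a, b, l)) fun _ => by simp)
    fun a => Ell97.CBs_mono (h3 q a) fun _ => by simp
  refine rb_unif (F' := fun z v => Nk89.wt ((𝔉 z.1).G v.2.1).F (wg s δ z) (w z).sm) H.ff
    (fun z v hv => ?_) (d := fun k => 2 * |D k|) (C := Nk89.cT ι C' D) (a := fun k => max (cN ι ι c' (C₁ k) k) (cN ι ι c' (C₅ k) k))
    fun z v hv => ?_
  · have f := H.fam z.1
    have w' := Nk89.wt_wt ((𝔉 z.1).G v.2.1).F (w z).sm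
    have s1 := fun a b => (f.sS a b).cb _ hv
    obtain ⟨c, hc⟩ := H.low _ _ hv
    obtain ⟨C, hC⟩ := (r1.sb _).cb _ hv
    obtain ⟨D, hD⟩ := Cb_unif fun a => show ((𝔉 z.1).G v.2.1).F.Cb
        (((𝔉 z.1).G v.2.1).F.D a (wg s δ z)) from by
      rw [(f.mix _ hv).D]
      exact (f.mix _ hv).Cb s1 (Cb_sum _ fun b _ => Cb_smul (s1 a b) ((H.ub_wg b).cb z))
    exact ⟨⟨⟨⟨_, f.mix _ hv, fun a b => (w z).Cb.2 (s1 a b)⟩, _,
      wm_mono ((r2 _ _ hv).2.trans_le (dens_le (CB_bound (hC.2 0)))) _⟩, ⟨_, Mon62.mix_inv f hv,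
        fun a b => w'.toWtP.Cb.2 ((f.mix _ hv).Cb s1 ((f.sSi a b).cb _ hv))⟩, c, wm_mono hc _⟩,
      _, _, w'.dr hD (H.dr_wg z hv), w'.tame (f.tameG _ hv).choose_spec (H.wg0 z) hD⟩
  · let q : Z := (z, ⟨v.2.1, mem_closedBall_zero_iff.2
      ((norm_fst_le v.2).trans (mem_closedBall_zero_iff.1 hv.2))⟩)
    have w' := Nk89.wt_wt (G q) (w z).sm
    have x1 : Mix (Fp s δ z).toPre (Nk89.wt (G q) (wg s δ z) (w z).sm).toPre _ :=
      (H.fam _).mix _ (hq q)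
    have x2 : Mix (Nk89.wt (G q) (wg s δ z) (w z).sm).toPre (Fp s δ z).toPre _ :=
      Mon62.mix_inv (H.fam _) (hq q)
    exact ⟨w'.dr (hD q) (H.dr_wg z (hq q)), w'.tame (tG q) (H.wg0 z) (hD q), fun k =>
      ⟨(x1.rep_id (fun a b => (h1 q ((a, b), true)).1) (wm_mono (m1 q) _)
        fun a b => (w z).CB.2 ((h1 q ((a, b), true)).2 k)).2.trans (le_max_left _ _),
      (x2.rep_id (fun a b => (h5 q (a, b)).1) (wm_mono (m2 q) _)
        fun a b => w'.toWtP.CB.2 ((h5 q (a, b)).2 k)).2.trans (le_max_right _ _)⟩⟩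

end Un

end Crest.Agent.X212.Gla92
end
end

-- ▼ part X212/Gla92/Cf

/-! # Row 212, GL (helper92): configurations of the sides, the gauge row, classes of equations -/

set_option autoImplicit false
set_option linter.unusedSectionVars false
set_option maxSynthPendingDepth 3
noncomputable section
open scoped Manifold ContDiff Topology InnerProductSpace ENNReal NNReal
open MeasureTheory Set Function Filter Real Metric

namespace Crest.Agent.X212.Gla92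
open An Sob92 Prm93 Mod61 Map77 Mon62 Mon62.Dm Gl67
open Ell97 (UB)
open Std94 (Kl)

variable {E : Type} [NormedAddCommGroup E] [NormedSpace ℝ E] [FiniteDimensional ℝ E]
  [MeasurableSpace E] [BorelSpace E]
  {HM : Type} [TopologicalSpace HM] {I : ModelWithCorners ℝ E HM} [I.Boundaryless]
  {M : Type} [TopologicalSpace M] [ChartedSpace HM M] [IsManifold I ∞ M]
  [MeasurableSpace M] [T2Space M] [BorelSpace M] [SecondCountableTopology M]
  {ι lam h : Type} [Fintype ι] [Fintype lam] [Fintype h]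
  {T U Up R : Type} [NormedAddCommGroup T] [NormedSpace ℝ T] [NormedAddCommGroup U]
  [NormedSpace ℝ U] [NormedAddCommGroup Up] [NormedSpace ℝ Up] [NormedAddCommGroup R]
  [NormedSpace ℝ R] {N r n m : ℕ} {Jc : En (Fin N)}

/-! ### one side -/

section one
variable {𝔉 : Fam I M ι lam T} {s : Sid 𝔉 N Jc U Up R} (H : s.OK)
include H

theorem Pg_eq : s.Pg = s.md.pg := by rw [Sid.Pg, H.om.1, indicator_univ]
theorem Pp_eq : s.Pp = s.md.pp 𝔉.B := by rw [Sid.Pp, H.om.2, indicator_univ]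
theorem Pm_eq : s.Pm = s.md.pm 𝔉.B := by rw [Sid.Pm, H.om.2, indicator_univ]
theorem P1_eq : s.P1 = s.md.p1 𝔉.B := by unfold Sid.P1; rw [Pg_eq H]; rfl
theorem P2_eq : s.P2 = s.md.p2 𝔉.B := by unfold Sid.P2; rw [Pg_eq H]; rfl

theorem fa_mem (w : Sec I s.bd.pC) (x : M) : s.md.p1 𝔉.B x (fa (w.1 x)) = fa (w.1 x) := by
  rw [← P1_eq H]; exact (f2_ps _ _).symm.trans (congrArg _ (w.2.2.2 x))

theorem fp_mem (w : Sec I s.bd.pC) (x : M) : s.md.pp 𝔉.B x (fp (w.1 x)) = fp (w.1 x) := by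
  rw [← Pp_eq H]; exact (s2_ps _ _).symm.trans (congrArg _ (w.2.2.2 x))

variable (c : Cm N r h R) (w : Sec I s.bd.pC) {q : PP T U r h N} (hq : q.1 ∈ 𝔉.Q)
include hq

theorem conn_cfg : s.md.IsConn 𝔉.B (𝔉.G q.1) (s.cfg c w.1 q).W := by
  have e : ∀ x a, fa (w.1 x) a + s.b x q.2.1 a ∈ s.md.gS x := fun x a => by
    rw [← fa_mem H, ← H.pb, Md.p1, Wz78.idx_apply, Wz78.idx_apply]
    exact add_mem (Submodule.sum_mem _ fun b _ => Submodule.smul_mem _ _ (Wz78.pg_mem x _))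
      (Submodule.sum_mem _ fun b _ => Submodule.smul_mem _ _ (Wz78.pg_mem x _))
  refine isConn_addC H.ok (H.fam.conn _ _ H.ok H.conn _ hq) (fun a => ?_) (fun x a => ?_)
    fun x a => ?_
  · simp only [Wz78.idx_apply]
    exact contMDiff_finsetSum fun b _ => (Cb.sm ((H.fam.sS a b).cb _ hq)).smul
      ((pj _ b).contMDiff.comp ((fa.contMDiff.comp w.2.1).add
        ((Cb.sm H.cb).clm_apply contMDiff_const)))
  · rw [Wz78.idx_apply]
    exact Submodule.sum_mem _ fun b _ => Submodule.smul_mem _ _ (e x b)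
  · simp only [Wz78.idx_apply, Finset.smul_sum, smul_smul]
    rw [Finset.sum_comm]
    simp only [← Finset.sum_smul, H.fam.PS _ hq]

theorem pm_eq0 (x : M) : s.md.pm 𝔉.B x ((𝔉.eq0 r n m q.1).D (s.cfg c w.1 q) x) =
    (𝔉.eq0 r n m q.1).D (s.cfg c w.1 q) x := by
  have e := Wz78.dir_pp H.fam.B H.ok (conn_cfg H c w hq) (u := s.Φ0 + fun x => fp (w.1 x)) (x := x)
    (((Cb.sm H.cΦ).add (fp.contMDiff.comp w.2.1)) x)
  simp only [Pi.add_apply, map_add, H.pos, fp_mem H] at e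
  exact e.symm

omit hq in
theorem pg_row (t : T) (w : M → Cf ι (Fin N)) (x : M) : s.Pg x (s.row t w x) = s.row t w x := by
  have e : ∀ ξ, s.Pg x (s.Pg x ξ) = s.Pg x ξ := by rw [Pg_eq H]; exact Wz78.pg_pg (m := s.md) x
  have e' : ∀ (L : CL (HS (Fin N)) (Cf ι (Fin N))) v, s.Pg x (Op.tr (L ∘L s.Pg x) v) =
      Op.tr (L ∘L s.Pg x) v := fun L v => ext_inner_left ℝ fun ξ => by
    have := Wz78.inner_pg (m := s.md) x
    rw [← Pg_eq H] at this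
    rw [← this, Ell97.inner_tr, Ell97.inner_tr]
    simp only [ContinuousLinearMap.comp_apply, e]
  simp only [Sid.row, Op.app, Pre.op, Op.adj, Bd.d0, cut, map_add, map_sum, map_smul, e,
    neg_apply, map_neg, ← ContinuousLinearMap.comp_assoc, e', ContinuousLinearMap.comp_apply]

end one

variable {J : Type} {𝔉 : J → Fam I M ι lam T} {s : ∀ i, Sid (𝔉 i) N Jc U Up R} {δ r₀ : ℝ}

theorem tk {A : Type} [NormedAddCommGroup A] [NormedSpace ℝ A] {F : J → Pre I M ι} {f : J → M → A}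
    (h : UB F f) : (ubK F).mem fun q => f q.1 q.2 := h

theorem fk {A : Type} [NormedAddCommGroup A] [NormedSpace ℝ A] {F : J → Pre I M ι} {g : J × M → A}
    (h : (ubK F).mem g) : UB F fun i x => g (i, x) := h

theorem kl_tp {X α Y Z : Type} {K : Kl X} [Fintype α] [NormedAddCommGroup Y] [NormedSpace ℝ Y]
    [NormedAddCommGroup Z] [InnerProductSpace ℝ Z] {f : X → α → Y →L[ℝ] Z}
    (h : ∀ a, K.mem fun x => f x a) : K.mem fun x => tp (f x) := by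
  simp only [tp_eq]; exact Kl.fsum _ fun a => Kl.comp (K.const _) (h a)

theorem kl_sm2 {X Y Z Y' Z' : Type} {K : Kl X} [NormedAddCommGroup Y] [NormedSpace ℝ Y]
    [NormedAddCommGroup Z] [NormedSpace ℝ Z] [NormedAddCommGroup Y'] [NormedSpace ℝ Y']
    [NormedAddCommGroup Z'] [NormedSpace ℝ Z'] {f : X → Y →L[ℝ] Y'} {g : X → Z →L[ℝ] Z'}
    (h : K.mem f) (h' : K.mem g) : K.mem fun x => sm2 (f x) (g x) :=
  K.add (Kl.comp (K.const _) (Kl.comp h (K.const _))) (Kl.comp (K.const _) (Kl.comp h' (K.const _)))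

theorem us_mulK {X Y : J → Type} [∀ i, NormedAddCommGroup (X i)] [∀ i, NormedSpace ℝ (X i)]
    {D : Dm I M ι X Y} {V W : Type} [NormedAddCommGroup V] [InnerProductSpace ℝ V]
    [NormedAddCommGroup W] [InnerProductSpace ℝ W] [CompleteSpace V] [CompleteSpace W] {j : ℕ}
    {ε : Prop} (hj : 4 ≤ j) {A : (Σ i, X i) × M → V →L[ℝ] W} (hA : (usK D).mem A)
    {w : ∀ i, Y i → M → V} (h : D.A0 True j w) :
    D.A0 ε j fun i y x => A (⟨i, D.pt i y⟩, x) (w i y x) := us_mul hj hA h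

theorem a0_adj {X Y : J → Type} [∀ i, NormedAddCommGroup (X i)] [∀ i, NormedSpace ℝ (X i)]
    {D : Dm I M ι X Y} {V W : Type} [NormedAddCommGroup V] [InnerProductSpace ℝ V]
    [NormedAddCommGroup W] [InnerProductSpace ℝ W] [FiniteDimensional ℝ V] [FiniteDimensional ℝ W]
    {j : ℕ} {G : ∀ i, X i → Fr I M ι} (hF : D.FF G) (hj : 4 ≤ j) {p : J → M → V →L[ℝ] V}
    {q : J → M → W →L[ℝ] W} {σ : ι → J → M → V →L[ℝ] W} {b : ∀ i, X i → M → V →L[ℝ] W}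
    (hp : UB D.P p) (hq : UB D.P q) (hσ : ∀ a, UB D.P (σ a)) (hb : D.US b) {u : ∀ i, Y i → M → W}
    (hu : D.A0 True (j + 1) u) : D.A0 True j fun i y => ((cut (G i (D.pt i y)).toPre (p i) (q i)
      (fun a => σ a i) (b i (D.pt i y))).adj (G i (D.pt i y))).app (G i (D.pt i y)) (u i y) := by
  have := FiniteDimensional.complete ℝ V
  have := FiniteDimensional.complete ℝ W
  have s1 := fun a => (hq.comp ((hσ a).comp hp)).clm (Ell97.trL V W)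
  have f : ∀ {A : Type} [NormedAddCommGroup A] [NormedSpace ℝ A] {f : J → M → A}, UB D.P f →
      (usK D).mem fun z => f z.1.1 z.2 := fun h => US.fixed h
  have g : ∀ {A : Type} [NormedAddCommGroup A] [NormedSpace ℝ A] {f : J → M → A}, UB D.P f →
      ∀ a, (usK D).mem fun z => (G z.1.1 z.1.2).D a (f z.1.1) z.2 :=
    fun h a => us_dG hF (US.fixed h) a
  have b0 : (usK D).mem fun z => b z.1.1 z.1.2 z.2 := hb
  have d0 : ∀ a, (usK D).mem fun z => (G z.1.1 z.1.2).dv a z.2 := fun a => (hF.dv a).us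
  have b1 := Kl.comp (f hp) (Kl.sub (Kl.clm (Ell97.trL V W) (Kl.comp (f hq) ((usK D).add b0
    (Kl.fsum Finset.univ fun a => Kl.comp (f (hσ a)) (g hp a)))))
    (Kl.fsum Finset.univ fun a => (usK D).add (g (s1 a) a) (Kl.smul (d0 a) (f (s1 a)))))
  exact ((A0.fsum Finset.univ fun a _ => (hu.dG hF hj a).app hj (s1 a).neg).add
    (us_mulK hj b1 (hu.lower hj j.le_succ))).congr fun _ _ _ => rfl

variable (s) in
/-- the modules -/
abbrev mf : MF M ι lam (J × Pf) :=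
  ⟨N, Jc, fun z => (s z.1).p, fun z => (s z.1).ρ, fun z => (s z.1).j⟩

namespace Un
variable (H : Un s δ r₀)
include H

theorem ub_P (a b : ι) : UB (P0 𝔉) fun i => (𝔉 i).B.P a b :=
  let ⟨C, h⟩ := H.tame; ⟨C, fun i => by
    beta_reduce; rw [← (H.fam i).P0]; exact (h i).P a b⟩

theorem ub_om : UB (N := En (Fin N)) (P0 𝔉) fun i => (s i).md.om (𝔉 i).B :=
  have := fk (Kl.csmul (1 / 24 : ℝ) (Kl.fsum Finset.univ fun a => Kl.fsum Finset.univ fun b =>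
    Kl.fsum Finset.univ fun c => Kl.fsum Finset.univ fun d => Kl.smul (tk (H.o a b c d))
      (Kl.mulL (Kl.mulL (Kl.mulL (tk (H.ρ a)) (tk (H.ρ b))) (tk (H.ρ c))) (tk (H.ρ d)))))
  ub_congr this fun _ => rfl

theorem ub_pp : UB (N := En (Fin N)) (P0 𝔉) fun i => (s i).md.pp (𝔉 i).B :=
  (UB.const _).smul (H.p.sub H.ub_om)
theorem ub_pm : UB (N := En (Fin N)) (P0 𝔉) fun i => (s i).md.pm (𝔉 i).B :=
  (UB.const _).smul (H.p.add H.ub_om)

theorem ub_pg : UB (N := CL (HS (Fin N)) (HS (Fin N))) (P0 𝔉) fun i => (s i).md.pg :=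
  have := fk (Kl.pgF ((ubK (P0 𝔉)).const Jc) (fun a => tk (H.ρ a)) (tk H.j))
  ub_congr this fun i => funext fun x => Std94.pg_eq (H.fam i).B (Std94.pmx (H.ok i).ok x)

theorem ub_sd (a b : ι × ι) : UB (P0 𝔉) fun i x => (𝔉 i).B.sd x a b :=
  ub_congr ((UB.const (1 / 2 : ℝ)).smul (((UB.const (1 / 2 : ℝ)).smul (((H.ub_P a.1 b.1).smul
    (H.ub_P a.2 b.2)).sub ((H.ub_P a.1 b.2).smul (H.ub_P a.2 b.1)))).add
    ((UB.const (1 / 2 : ℝ)).smul (H.o a.1 a.2 b.1 b.2)))) fun i => funext fun x => by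
      simp only [Base.sd, Base.a2, Base.st, smul_eq_mul]; ring

theorem ub_p1 : UB (N := CL (Fm ι (HS (Fin N))) (Fm ι (HS (Fin N)))) (P0 𝔉) fun i =>
    (s i).md.p1 (𝔉 i).B :=
  have := fk (Kl.idx (fun a b => tk (H.ub_P a b)) (tk H.ub_pg))
  ub_congr this fun _ => rfl

theorem ub_p2 : UB (N := CL (Fm (ι × ι) (HS (Fin N))) (Fm (ι × ι) (HS (Fin N)))) (P0 𝔉) fun i =>
    (s i).md.p2 (𝔉 i).B :=
  have := fk (Kl.idx (fun a b => tk (H.ub_sd a b)) (tk H.ub_pg))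
  ub_congr this fun _ => rfl

theorem ub_Pg : UB (P0 𝔉) fun i => (s i).Pg := ub_congr H.ub_pg fun i => Pg_eq (H.ok i)
theorem ub_Pm : UB (P0 𝔉) fun i => (s i).Pm := ub_congr H.ub_pm fun i => Pm_eq (H.ok i)
theorem ub_P2 : UB (P0 𝔉) fun i => (s i).P2 := ub_congr H.ub_p2 fun i => P2_eq (H.ok i)

theorem ub_pC : UB (P0 𝔉) fun i => (s i).bd.pC :=
  have a : UB (P0 𝔉) fun i => (s i).P1 := ub_congr H.ub_p1 fun i => P1_eq (H.ok i)
  have b : UB (P0 𝔉) fun i => (s i).Pp := ub_congr H.ub_pp fun i => Pp_eq (H.ok i)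
  have := fk (kl_sm2 (tk a) (tk b))
  ub_congr this fun _ => rfl

variable {k : ℕ} {ρ : ℝ≥0} {ε ε' : Prop}

/-- the configurations -/
def kf (c : Cm N r h R) (k : ℕ) (ρ : ℝ≥0) : CF (H.dm h r k ρ) (mf s) r where
  G z v := ((𝔉 z.1).G v.2.1).F
  W z y := ((s z.1).cfg c y.1.1 y.2.1).W
  Φ z y := (s z.1).Φ0 + fun x => fp (y.1.1 x)
  z _ y := c.z0 + y.2.1.2.2.1

theorem ubW_pm : UB (H.dm h r k ρ).P ((mf s).pm fun z => (𝔉 z.1).B) :=
  have := H.ubW (h := h) (r := r) (k := k) (ρ := ρ) H.ub_pm; this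

theorem ubW_pp : UB (H.dm h r k ρ).P (N := En (Fin N)) fun z => ((mf s).m z).pp (𝔉 z.1).B :=
  have := H.ubW (h := h) (r := r) (k := k) (ρ := ρ) H.ub_pp; this

theorem ubW_p2 : UB (H.dm h r k ρ).P ((mf s).p2 fun z => (𝔉 z.1).B) :=
  have := H.ubW (h := h) (r := r) (k := k) (ρ := ρ) H.ub_p2; this

theorem a0_w (hk : 3 ≤ k) : (H.dm h r k ρ).A0 ε (k + 1) fun _ y => y.1.1 :=
  A0.of_coord (by omega) (p := fun z => (s z.1).bd.pC) (δ := fun _ v => v.1) (uc_fst H.uc_id)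
    ⟨fun _ y => Cb_of_hcs y.1.2.1 y.1.2.2.1, UB.const 0⟩
    fun z y => (val_toH ((H.dm h r k ρ).sup z) (by omega) y.1).symm

theorem us_fix {A : Type} [NormedAddCommGroup A] [NormedSpace ℝ A] {f : J → M → A}
    (hf : UB (P0 𝔉) f) : (usK (H.dm h r k ρ)).mem fun q => f q.1.1.1 q.2 := US.fixed (H.ubW hf)

theorem us_ut {A : Type} [NormedAddCommGroup A] [NormedSpace ℝ A] {f : J → T → M → A}
    (hf : UT 𝔉 r₀ f) : (usK (H.dm h r k ρ)).mem fun q => f q.1.1.1 q.1.2.2.1 q.2 := H.usW hf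

theorem us_S : (usK (H.dm h r k ρ)).mem fun q =>
    idx ((𝔉 q.1.1.1).S q.1.2.2.1 q.2) (.id ℝ (HS (Fin N))) :=
  Kl.idx (fun a b => H.us_ut (H.S a b)) ((usK _).const _)

theorem us_W0 (a : ι) : (usK (H.dm h r k ρ)).mem (N := En (Fin N)) fun q =>
    (𝔉 q.1.1.1).W0 (s q.1.1.1).md (s q.1.1.1).A0 q.1.2.2.1 a q.2 :=
  (usK _).add ((usK _).add (Kl.fsum _ fun b => Kl.smul (H.us_ut (H.S a b)) (H.us_fix (H.A0 b)))
    (Kl.fsum _ fun b => Kl.fsum _ fun l => Kl.smul (H.us_ut (H.cf a b l))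
      (Kl.mulL (H.us_fix (H.ρ b)) (H.us_fix (H.ρ l)))))
    (Kl.smul (H.us_ut (H.la a)) (Kl.mulL ((usK _).const Jc) (H.us_fix H.p)))

/-- **the gauge row** -/
theorem a0_row (hk : 4 ≤ k) :
    (H.dm h r k ρ).A0 ε k fun z y => (s z.1).row y.2.1.1 y.1.1 := by
  let K := usK (H.dm h r k ρ)
  have hw := H.a0_w (h := h) (r := r) (ρ := ρ) (ε := True) (by omega : 3 ≤ k)
  have u := us_mulK (ε := True) (by omega) (kl_sm2 H.us_S (K.const (.id ℝ (Eu (Fin N))))) hw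
  have s0 : ∀ a, UB (P0 𝔉) fun i x => σ0 (κ := Fin N) ((s i).bd.Px x) a := fun a =>
    ub_congr (fk (Kl.neg (Kl.comp ((ubK _).const (i1 _ _)) (kl_tp fun b =>
      Kl.smul (tk (H.ub_P b a)) ((ubK _).const (ContinuousLinearMap.id ℝ (HS (Fin N)))))))) fun _ => rfl
  have b0 : K.mem fun q => Map77.base ((𝔉 q.1.1.1).W0 (s q.1.1.1).md (s q.1.1.1).A0 q.1.2.2.1)
      (s q.1.1.1).Φ0 q.2 := by
    simp only [Map77.base, ← fun v : ι → HS (Fin N) => (PiLp.ext (sum_ij v) : _ = WithLp.toLp 2 v)]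
    exact K.add (Kl.clm _ (Kl.fsum _ fun a => Kl.clm _ (Kl.clm hsL (H.us_W0 a))))
      (Kl.clm _ (H.us_fix H.Φ0))
  have b1 : (H.dm h r k ρ).US fun z v x => l0 (Map77.base ((𝔉 z.1).W0 (s z.1).md (s z.1).A0 v.2.1)
      (s z.1).Φ0 x : Cf ι (Fin N)) := Kl.clm l0 b0
  have a1 := a0_adj H.ff hk (H.ubW H.ub_Pg) (H.ubW H.ub_pC) (fun a => H.ubW (s0 a)) b1 u
  have a2 := A0.fsum Finset.univ fun a _ => (Lc.fixed (H.ubW (H.dr a))).smul hk
    (((hw.lower hk k.le_succ).clm hk (pj _ a ∘L fa)).app hk (H.ubW H.ub_Pg))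
  exact ((a1.add a2).imp fun _ => trivial).congr fun _ _ _ => rfl

theorem skW (c : Cm N r h R) (z : J × Pf) (y : YY h r s z) (a : ι) (x : M) : Skw ((H.kf c k ρ).W z y a x) :=
  (conn_cfg (H.ok _) c y.1 y.2.2).sk a x

theorem sc_z (c : Cm N r h R) : (H.dm h r k ρ).Sc (H.kf c k ρ).z := (Sc.const _).add
  (H.sc_q (ContinuousLinearMap.fst ℝ _ _ ∘L ContinuousLinearMap.snd ℝ _ _ ∘L
    ContinuousLinearMap.snd ℝ _ _))

/-- the calculus of `Mon62` applies if the moving limit is trivial -/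
theorem cfOK (c : Cm N r h R) (hk : 7 ≤ k)
    (hb : (H.dm h r k ρ).A0 False (k + 1) fun z y x => (s z.1).b x y.2.1.2.1) :
    (H.kf c k ρ).OK False (k + 1) := by
  obtain ⟨χ, c1, c2⟩ := H.loc
  have h4 : 4 ≤ k + 1 := by omega
  have hw := H.a0_w (h := h) (r := r) (ρ := ρ) (ε := False) (by omega : 3 ≤ k)
  have sS := fun a b => H.lcW (h := h) (r := r) (k := k) (ρ := ρ) (H.S a b) c1 fun i => (c2 i).1 a b
  refine ⟨by omega, H.ff, H.rb, H.rb, H.re, H.re, fun a => ?_, H.skW c,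
    (A0.fixed (H.ubW H.Φ0)).add (hw.clm h4 fp), H.sc_z c, fun a => H.ubW (H.ρ a), H.ubW H.j,
    H.ubW H.ub_pg⟩
  have mul := fun {f g : J → M → En (Fin N)} (hf : UB (P0 𝔉) f) (hg : UB (P0 𝔉) g) =>
    A0.fixed (D := H.dm h r k ρ) (j := k + 1) (H.ubW ((hf.comp hg).clm hsL))
  refine ((((A0.fsum Finset.univ fun b _ => (sS a b).smul h4
    (A0.fixed (H.ubW ((H.A0 b).clm hsL)))).add (A0.fsum Finset.univ fun b _ =>
      A0.fsum Finset.univ fun l _ => (H.lcW (H.cf a b l) c1 fun i => (c2 i).2.1 a b l).smul h4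
        (mul (H.ρ b) (H.ρ l)))).add ((H.lcW (H.la a) c1 fun i => (c2 i).2.2.1 a).smul h4
          (mul (UB.const Jc) H.p))).add (A0.fsum Finset.univ fun b _ => (sS a b).smul h4
            (((hw.clm h4 fa).add hb).clm h4 (pj _ b)))).congr fun z y x => ?_
  have e := Wz78.idx_apply ((𝔉 z.1).S y.2.1.1 x) (ContinuousLinearMap.id ℝ (HS (Fin N)))
    (fa (y.1.1 x) + (s z.1).b x y.2.1.2.1) a
  simp only [kf, Sid.cfg, Md.addC, Fam.W0, map_add hsL, map_sum hsL, map_smul hsL, Wz78.hsL_opL, e]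
  rfl

theorem hb0 (hb : ∀ i x u, (s i).b x u = 0) :
    (H.dm h r k ρ).A0 False (k + 1) fun z y x => (s z.1).b x y.2.1.2.1 :=
  A0.zero.congr fun _ _ _ => hb _ _ _

/-! ### equations -/

/-- equations in the calculus -/
structure Cl (c : Cm N r h R) (k : ℕ) (ρ : ℝ≥0) (ε : Prop) (e : J → T → PtX M ι lam r n m) : Prop where
  D : (H.dm h r k ρ).A0 ε k (V := Eu (Fin N)) fun z y =>
    (e z.1 y.2.1.1).D ((s z.1).cfg c y.1.1 y.2.1)
  C : (H.dm h r k ρ).A0 ε k (V := Fm (ι × ι) (HS (Fin N))) fun z y =>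
    (e z.1 y.2.1.1).C ((s z.1).cfg c y.1.1 y.2.1)
  S : (H.dm h r k ρ).Sc fun z y =>
    ((e z.1 y.2.1.1).S ((s z.1).cfg c y.1.1 y.2.1), (e z.1 y.2.1.1).R ((s z.1).cfg c y.1.1 y.2.1))
  pD : ∀ i (w : Sec I (s i).bd.pC) q, q.1 ∈ (𝔉 i).Q → ∀ x, (s i).md.pm (𝔉 i).B x
    ((e i q.1).D ((s i).cfg c w.1 q) x) = (e i q.1).D ((s i).cfg c w.1 q) x
  pC : ∀ i (w : Sec I (s i).bd.pC) q, q.1 ∈ (𝔉 i).Q → ∀ x, (s i).md.p2 (𝔉 i).B x
    ((e i q.1).C ((s i).cfg c w.1 q) x) = (e i q.1).C ((s i).cfg c w.1 q) x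

end Un

namespace Un
variable {H : Un s δ r₀} {c : Cm N r h R} {e e' : J → T → PtX M ι lam r n m} {k : ℕ} {ρ : ℝ≥0}
  {ε ε' : Prop}

namespace Cl

theorem congr (a : H.Cl c k ρ ε e) (b : ∀ i, ∀ t ∈ (𝔉 i).Q, e' i t = e i t) : H.Cl c k ρ ε e' :=
  ⟨a.D.congr fun _ y _ => by rw [b _ _ y.2.2], a.C.congr fun _ y _ => by rw [b _ _ y.2.2],
    a.S.congr fun _ y => by rw [b _ _ y.2.2], fun i w q hq => b i _ hq ▸ a.pD i w q hq,
    fun i w q hq => b i _ hq ▸ a.pC i w q hq⟩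

theorem imp (a : H.Cl c k ρ ε e) (b : ε' → ε) : H.Cl c k ρ ε' e :=
  ⟨a.D.imp b, a.C.imp b, a.S, a.pD, a.pC⟩

theorem zero : H.Cl c k ρ ε (0 : J → T → PtX M ι lam r n m) :=
  ⟨A0.zero, A0.zero, Sc.const 0, fun _ _ _ _ _ => map_zero _, fun _ _ _ _ _ => map_zero _⟩

theorem add (a : H.Cl c k ρ ε e) (b : H.Cl c k ρ ε e') : H.Cl c k ρ ε (e + e') :=
  ⟨a.D.add b.D, a.C.add b.C, a.S.add b.S, fun i w q hq x => (map_add _ _ _).trans
    (congrArg₂ (· + ·) (a.pD i w q hq x) (b.pD i w q hq x)), fun i w q hq x =>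
    (map_add _ _ _).trans (congrArg₂ (· + ·) (a.pC i w q hq x) (b.pC i w q hq x))⟩

theorem smul (hk : 4 ≤ k) (t : ℝ) (a : H.Cl c k ρ ε e) : H.Cl c k ρ ε (t • e) :=
  ⟨a.D.clm hk (t • .id ℝ _), a.C.clm hk (t • .id ℝ _), a.S.clm (t • .id ℝ _),
    fun i w q hq x => (map_smul _ _ _).trans (congrArg (t • ·) (a.pD i w q hq x)),
    fun i w q hq x => (map_smul _ _ _).trans (congrArg (t • ·) (a.pC i w q hq x))⟩

theorem neg (hk : 4 ≤ k) (a : H.Cl c k ρ ε e) : H.Cl c k ρ ε (-e) := neg_one_smul ℝ e ▸ a.smul hk _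

theorem sum {K : Type*} (t : Finset K) {v : K → J → T → PtX M ι lam r n m}
    (a : ∀ i ∈ t, H.Cl c k ρ ε (v i)) : H.Cl c k ρ ε (∑ i ∈ t, v i) :=
  Finset.sum_induction _ _ (fun _ _ => add) zero a

/-- coefficients that depend on the side and on the parameter -/
theorem par {γ : J → T → ℝ} (h1 : ∀ i, ContDiffOn ℝ ∞ (γ i) (𝔉 i).Q)
    (h2 : ∀ n, Bn (fun _ => closedBall 0 r₀) n γ) (a : H.Cl c k ρ True e) :
    H.Cl c k ρ ε fun i t => γ i t • e i t := by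
  have g : (H.dm h r k ρ).Sc fun z y => γ z.1 y.2.1.1 :=
    ⟨_, H.uc_t (f := fun z => γ z.1) (fun z => h1 z.1) fun n => bn_reix Prod.fst n (h2 n),
      fun _ _ => rfl⟩
  have a1 := a.D.smulc (ε := ε) g
  have a2 := a.C.smulc (ε := ε) g
  have a3 := g.bil (ContinuousLinearMap.lsmul ℝ ℝ) a.S
  refine ⟨a1.congr fun _ _ _ => rfl, a2.congr fun _ _ _ => rfl, a3.congr fun _ _ => rfl,
    fun i w q hq x => ?_, fun i w q hq x => ?_⟩
  · exact (map_smul _ (γ i q.1) _).trans (congrArg (γ i q.1 • ·) (a.pD i w q hq x))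
  · exact (map_smul _ (γ i q.1) _).trans (congrArg (γ i q.1 • ·) (a.pC i w q hq x))

end Cl

variable (κ : (H.kf c k ρ).OK False (k + 1))
include κ

/-- the unperturbed equations -/
theorem cl_eq0 : H.Cl c k ρ False fun i => (𝔉 i).eq0 r n m := by
  have hk := κ.hj
  have a1 := κ.eqD (l := k) (by omega) le_rfl
  have a2 := κ.eqC (l := k) (by omega) le_rfl H.ubW_p2
  refine ⟨?_, ?_, ?_, fun i w _ hq => ?_, fun i w q _ x => ?_⟩
  · exact a1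
  · exact a2
  · exact (Sc.const 0).congr fun _ _ => rfl
  · exact pm_eq0 (H.ok i) c w hq
  · have b := Std94.p2_p2 (m := (s i).md) (H.fam i).B x
    simp only [Fam.eq0, eq0, Md.mu]
    exact (map_sub _ _ _).trans (congrArg₂ (· - ·) (b _) (b _))

omit κ in
theorem pm_tm (H : Un s δ r₀) (i : J) (w : M → Cf ι (Fin N)) (q : PP T U r h N) (F : Fr I M ι) (τ : Tm M lam r n)
    (x : M) : (s i).md.pm (𝔉 i).B x (((s i).cfg c w q).tD (𝔉 i).B F τ x) =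
      ((s i).cfg c w q).tD (𝔉 i).B F τ x ∧ (s i).md.p2 (𝔉 i).B x
        (((s i).cfg c w q).tC (𝔉 i).B F τ x) = ((s i).cfg c w q).tC (𝔉 i).B F τ x := by
  have a := fun v => congrArg (fun S : En (Fin N) => S v)
    (Std94.pm_pm (H.fam i).B (Std94.pmx (H.ok i).ok x))
  have b := Std94.p2_p2 (m := (s i).md) (H.fam i).B x
  cases τ with
  | lin u => exact ⟨a _, map_zero _⟩
  | anti d s u => exact ⟨a _, map_zero _⟩
  | ad g g' ξ => exact ⟨map_zero _, b _⟩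
  | adj d s g g' u v l => exact ⟨map_zero _, b _⟩
  | adn f g g' φ L => exact ⟨map_zero _, b _⟩
  | _ => exact ⟨map_zero _, map_zero _⟩

/-- the terms of the jobs -/
theorem cl_tm {τ : Tm M lam r n} (hT : (H.dm h r k ρ).TmU τ) (hp : (H.kf c k ρ).Pu (k + 1) τ) :
    H.Cl c k ρ ε fun i t => (⟨tmP (𝔉 i).B ((𝔉 i).G t).F τ, fun _ => 0⟩ : PtX M ι lam r n m) :=
  have hk := κ.hj
  ⟨((κ.tD H.ubW_pm hT hp).lower (by omega) k.le_succ).imp
    fun _ => trivial, ((κ.tC H.ubW_p2 hT hp).lower (by omega)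
      k.le_succ).imp fun _ => trivial, sc_prod (κ.tS hT) (Sc.const 0),
    fun i _ _ _ x => (H.pm_tm i _ _ _ τ x).1, fun i _ _ _ x => (H.pm_tm i _ _ _ τ x).2⟩

end Un

end Crest.Agent.X212.Gla92
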