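import Crest.Agent.X212.Cqn41.Fin
import Crest.Agent.X212.Nfo63.Main
import Crest.Agent.X212.Cmp73.Fin
import Crest.Agent.X212.M.Lvi
import Crest.Agent.X212.M.Lva
import Crest.Agent.X212.M.Lvp
import Crest.Agent.X212.M.Lvj
import Crest.Agent.X212.Bnd52.Main
import Crest.Agent.X212.Png64.Gen
import Crest.Agent.X212.Png64.Main
import Crest.Agent.X212.Pfm51.Main
import Crest.Agent.X212.M.Lvz
import Crest.Agent.X212.Est17.Est
import Crest.Agent.X212.Lcz33.Pr
import Crest.Agent.X212.Lcz33.Row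
import Crest.Agent.X212.Lcz33.Z
import Crest.Agent.X212.Lcz33.Sd
import Crest.Agent.X212.Lcz33.Fin
import Crest.Agent.X212.Gla92.Lz0
import Crest.Agent.X212.Gla92.Lz1
import Crest.Agent.X212.Gla92.Lz2
import Crest.Agent.X212.Gla92.Lz3
import Crest.Agent.X212.Cay24.Lz
import Crest.Agent.X212.Gla92.Lz4
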