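import Crest.Agent.X212.Gla92.Z
import Crest.Agent.X212.Gla92.C11
import Crest.Agent.X212.Top11.CutU_Mg
import Crest.Agent.X212.Cay24.Gx
import Crest.Agent.X212.Gnk23.Main
import Crest.Agent.X212.Tmc7.Job
import Crest.Agent.X212.Gb50.Base

/-! # Row 212, GL (helper92): long necks (`LipX`, `C11`) -/

set_option autoImplicit false
set_option linter.unusedSectionVars false
set_option maxSynthPendingDepth 3
noncomputable section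
open scoped Manifold ContDiff Topology InnerProductSpace ENNReal NNReal
open MeasureTheory Set Function Filter Metric

namespace Crest.Agent.X212.Gla92
open An Sob92 Prm93 Mod61 Mon62 Mon62.Dm Gl67 Nd18 Lpe67
open Gj67 (FU SU)

section fmt
variable {E : Type} [NormedAddCommGroup E] [NormedSpace ℝ E] [FiniteDimensional ℝ E]
  [MeasurableSpace E] [BorelSpace E]
  {HM : Type} [TopologicalSpace HM] {I : ModelWithCorners ℝ E HM} [I.Boundaryless]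
  {M : Type} [TopologicalSpace M] [ChartedSpace HM M] [IsManifold I ∞ M]
  [MeasurableSpace M] [T2Space M] [BorelSpace M] [SecondCountableTopology M]
  {ι lam : Type} [Fintype ι] [Fintype lam]
  {T U Up R : Type} [NormedAddCommGroup T] [NormedSpace ℝ T] [NormedAddCommGroup U]
  [NormedSpace ℝ U] [NormedAddCommGroup Up] [NormedSpace ℝ Up] [NormedAddCommGroup R]
  [NormedSpace ℝ R] {N : ℕ} {Jc : En (Fin N)} {𝔉 : Fam I M ι lam T} {r : ℝ} {C C' : ℕ → ℝ}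

open Ell97 Gb50 in
theorem fu_mono (a : FU 𝔉 r C) (e : ∀ k, C k ≤ C' k) : FU 𝔉 r C' :=
  ⟨a.sub, Tame_mono a.t0 e, fun t ht => Tame_mono (a.tG t ht) e,
    fun _ _ _ _ => CBs_mono (a.o ..) e, CBs_mono a.l e, fun _ _ => ubn_mono (a.S _ _) e,
    fun _ _ => ubn_mono (a.Si _ _) e, fun _ _ _ => ubn_mono (a.cf _ _ _) e, fun _ => ubn_mono (a.la _) e,
    fun _ _ _ => ubn_mono (a.c _ _ _) e, fun _ => ubn_mono (a.dv _) e, fun _ => ubn_mono (a.a _) e,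
    a.μ.imp fun _ b => ⟨b.1, ubn_mono b.2.1 e, b.2.2⟩⟩

open Ell97 in
theorem su_mono {s : Sid 𝔉 N Jc U Up R} (a : SU s C) (e : ∀ k, C k ≤ C' k) : SU s C' :=
  ⟨CBs_mono a.p e, fun _ => CBs_mono (a.ρ _) e, CBs_mono a.j e, fun _ => CBs_mono (a.A _) e,
    CBs_mono a.Φ e, CBs_mono a.b e, fun _ => CBs_mono (a.dr _) e, fun _ => CBs_mono (a.h _) e⟩

section rs
variable {J h : Type} [Fintype h] {r n m : ℕ} {ct : h → Cut M lam}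

/-- the equations over a smaller set of parameters -/
@[reducible] def rq (ε : Eqn 𝔉 r n m ct) (Q' : Set T) : Eqn (res 𝔉 Q') r n m ct := ⟨ε.e, ε.σ⟩

theorem rep_rs {k : ℕ} {s : Sid 𝔉 N Jc U Up R} {c : Cm N r h R} {ε : Eqn 𝔉 r n m ct} {δ : ℝ} {Hm}
    (a : s.Rep c ε δ k Hm) (Q' : Set T) : (rs s Q').Rep c (rq ε Q') δ k Hm :=
  ⟨a.sm.mono fun _ b => b.1, fun w q hq =>
    let b := a.val w q hq.1; ⟨b.g, b.D, b.C, b.pk, b.e⟩⟩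

/-- bounds for a map of class `C¹¹` -/
def C1 {X Z : Type} [NormedAddCommGroup X] [NormedSpace ℝ X] [NormedAddCommGroup Z] [NormedSpace ℝ Z]
    (f : X → Z) (ρ C : ℝ) : Prop :=
  ‖fderiv ℝ f 0‖ ≤ C ∧ ∀ v, ‖v‖ ≤ ρ → ‖fderiv ℝ f v - fderiv ℝ f 0‖ ≤ C * ‖v‖

variable {𝔉 : J → Fam I M ι lam T} (s : ∀ i, Sid (𝔉 i) N Jc U Up R) (c : Cm N r h R)
  (ε : ∀ i, Eqn (𝔉 i) r n m ct) (δ : ℝ) (k : ℕ) (Q' : Set T) (r₀ : ℝ) (ρ : ℝ≥0)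

/-- the equations lie in the calculus over a smaller set of parameters -/
def ClR : Prop := ∃ (H : Un (fun i => rs (s i) Q') δ r₀) (Ω : Set M),
  Gm (fun i => rs (s i) Q') Ω ∧ H.Cl c k ρ False (fun i => (rq (ε i) Q').e) ∧
    H.Cr k ρ c fun i => rq (ε i) Q'

variable {s c ε δ k Q' r₀ ρ} (b : ClR s c ε δ k Q' r₀ ρ) (hk : 4 ≤ k)
include b hk

theorem ClR.lip : ∃ C : ℝ≥0, ∀ i, ((s i).sd c (ε i)).Lip δ k r₀ ρ C :=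
  let ⟨_, _, G, b, e⟩ := b
  b.lip G hk (g := fun i => (rs (s i) Q').eR c (rq (ε i) Q')) (Un.sc_eR G hk b e)

theorem ClR.c11 : ∃ C, ∀ i Hm, (s i).Rep c (ε i) δ k Hm → C1 Hm (min √ρ r₀) C :=
  let ⟨_, _, G, b, e⟩ := b
  have e : ∃ C, ∀ i Hm, (rs (s i) Q').Rep c (rq (ε i) Q') δ k Hm → C1 Hm (min √ρ r₀) C :=
    Un.c11 G hk b e
  e.imp fun _ e i Hm hm => e i Hm (rep_rs hm Q')

end rs

end fmt

open M An.Job Gj67

variable {Wi : Type} {X : Mf 4} {A κ lam : Type} [Fintype A] [Fintype κ] [Fintype lam]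
  [DecidableEq lam] {M : Mark X A κ} {W : World M} {L : ML M lam} {Λ : Lns W L}
  {A' h : Type} [Fintype A'] [DecidableEq A'] [Fintype h] {r n : ℕ}
  {J : Job Wi Λ A' h r n} {σ : Cel A'} {a : A'}
  {U Up R : Type} [NormedAddCommGroup U] [NormedSpace ℝ U] [FiniteDimensional ℝ U]
  [NormedAddCommGroup Up] [NormedSpace ℝ Up] [NormedAddCommGroup R] [NormedSpace ℝ R]
  {d : Dat J σ a U Up R} {q₀ : Wi →₀ ℝ} {δ : ℝ} {k : ℕ}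

namespace EvX
variable {P P' : ∀ ι : Type, (ι → d.Ta) → ℝ → Prop}

theorem mono (b : EvX d P) (e : ∀ ι τ ρ, P ι τ ρ → P' ι τ ρ) : EvX d P' :=
  let ⟨S, b1, r, b2, b3⟩ := b
  ⟨S, b1, r, b2, fun ι τ hτ ρ hρ => e ι τ ρ (b3 ι τ hτ ρ hρ)⟩

theorem and (b : EvX d P) (b' : EvX d P') : EvX d fun ι τ ρ => P ι τ ρ ∧ P' ι τ ρ :=
  let ⟨S, b1, r, b2, b3⟩ := b
  let ⟨S', c1, r', c2, c3⟩ := b'
  ⟨S ∩ S', inter_mem b1 c1, min r r', lt_min b2 c2, fun ι τ hτ ρ hρ =>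
    ⟨b3 ι τ (fun i => (hτ i).1) ρ ⟨hρ.1, hρ.2.trans (min_le_left _ _)⟩,
      c3 ι τ (fun i => (hτ i).2) ρ ⟨hρ.1, hρ.2.trans (min_le_right _ _)⟩⟩⟩

theorem all {K : Type} [Finite K] {P : K → ∀ ι : Type, (ι → d.Ta) → ℝ → Prop}
    (b : ∀ j, EvX d (P j)) : EvX d fun ι τ ρ => ∀ j, P j ι τ ρ := by
  choose S b1 r b2 b3 using b
  obtain ⟨r', c1, c2⟩ := ((eventually_mem_nhdsWithin (a := (0 : ℝ)) (s := Ioi 0)).and
    (eventually_all.2 fun j => Ioc_mem_nhdsGT (b2 j))).exists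
  exact ⟨⋂ j, S j, iInter_mem.2 b1, r', c1, fun ι τ hτ ρ hρ j =>
    b3 j ι τ (fun i => mem_iInter.1 (hτ i) j) ρ ⟨hρ.1, hρ.2.trans (c2 j).2⟩⟩

theorem lg {p : d.Ta → Prop} (b : ∀ᶠ τ in d.lg, p τ) {r : ℝ} (hr : 0 < r) :
    EvX d fun _ τ ρ => (∀ i, p (τ i)) ∧ ρ ≤ r := ⟨_, b, r, hr, fun _ _ hτ _ hρ => ⟨hτ, hρ.2⟩⟩

/-- along a sequence -/
theorem seq {α : Type} {l : Filter α} {τ : α → d.Ta} (hτ : Tendsto τ l d.lg) (b : EvX d P)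
    {O : Set α} (hO : O ∈ l) : ∃ O' ∈ l, O' ⊆ O ∧ ∃ ρ > 0, P O' (fun i => τ i) ρ :=
  let ⟨S, b1, r, b2, b3⟩ := b
  ⟨O ∩ τ ⁻¹' S, inter_mem hO (hτ b1), inter_subset_left, r, b2,
    b3 _ _ (fun i => i.2.2) r ⟨b2, le_rfl⟩⟩

end EvX

section
variable {ι : Type} (τ : ι → d.Ta) {r₀ ρ : ℝ}

theorem th_X (Hu : Un (fun i => sX d (τ i) ρ) δ r₀) (T : ∀ i, Gb50.Lg d (τ i)) :
    Th J (fun i => d.Gh (τ i)) (fun i => d.s (τ i)) (fun i => QX d (τ i) ρ) r₀ := by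
  have o := fun i => (Hu.fam i).opn
  have c : IsCompact (Icc (1 / 2 : ℝ) 1 ×ˢ closedBall (0 : Tc σ a) ρ) :=
    isCompact_Icc.prod (isCompact_closedBall _ _)
  have m : ∀ i, MapsTo (fun t => ((τ i : ℝ), t)) (QX d (τ i) ρ) (Icc (1 / 2) 1 ×ˢ closedBall 0 ρ) :=
    fun i t ht => ⟨⟨(T i).half, (T i).lt.le⟩, ball_subset_closedBall ht.2⟩
  exact ⟨(Co.of (h1 := o) (h2 := Hu.sub) ((UC.const ⟨1, fun i => abs_le.2
    ⟨by linarith [(T i).half], (T i).lt.le⟩⟩).prod (UC.id ⟨r₀, fun _ _ =>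
      mem_closedBall_zero_iff.1⟩))).cmp o Hu.sub isOpen_univ c (subset_univ _)
        (Gb50.cd_ee d.y.s).contDiffOn m,
    _, c.image (Gb50.cd_ee d.y.s).continuous, fun i t ht => ⟨_, m i ht, rfl⟩⟩

end

variable (H : d.OK q₀ δ) (hk : 7 ≤ k)
include H

theorem ev_un {t : ℝ} (G : EvX d fun _ τ _ => Gm (fun i => d.Xs (τ i)) (Om d t)) :
    EvX d fun _ τ ρ => (Lo (fun i => sX d (τ i) ρ) (Om d t) ∧ Gm (fun i => sX d (τ i) ρ) (Om d t) ∧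
      ∀ i, Gb50.Lg d (τ i)) ∧ ∀ r₀, 0 ≤ r₀ → r₀ < ρ →
      Un (fun i => sX d (τ i) ρ) δ r₀ ∧ Uv (fun i => sX d (τ i) ρ) δ r₀ := by
  obtain ⟨r, r0, C, -, fu⟩ := (Gb50.geo H).fam
  obtain ⟨C', b⟩ := Gb50.base H
  refine ((G.and (Cay24.loX H t)).and (EvX.lg (fu.and (b.and (Gb50.ev_lg H))) r0)).mono
    fun ι τ ρ ⟨⟨G, lo⟩, e, e'⟩ => ⟨⟨lo_rs lo, gm_rs G, fun i => (e i).2.2⟩, fun r₀ r1 r2 => ?_⟩
  exact ⟨un_of (C := fun k => max (C k) (C' k)) (fun i => (e i).2.1.1)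
    (fun i => fu_mono (e i).1.2.1 fun _ => le_max_left _ _)
    (fun i => su_mono (e i).2.1.2.1 fun _ => le_max_right _ _)
    (fun i => lt_fam ((e i).1.1.G0)) lo G H.δ0.le (H.δ2.trans (by norm_num)) r1 r2 e',
    uv_of (fun i => (e i).2.1.1) (fun i => (e i).1.2.1) (fun _ => rfl) lo G H.δ2 r2 e'⟩

include hk

theorem cl_X (S : Finset Wi) : EvX d fun ι τ ρ => ∀ r₀, 0 ≤ r₀ → r₀ < ρ →
    ∀ q : ι → Wi →₀ ℝ, Qb q S → ∀ ρ',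
      ClR (fun i => d.Xs (τ i)) d.cm (fun i => d.εX (τ i) (q i)) δ k (ball 0 ρ) r₀ ρ' := by
  obtain ⟨t, G, nk, tm, ct⟩ := ((Cay24.gmX H).and
    ((eventually_all.2 fun p : A × Option Bool => Gnk23.nkX H p.1 p.2).and
    ((eventually_all.2 fun w : S => Tmc7.tmX H w).and (eventually_all.2 (Tmc7.ctX H))))).exists
  have key : EvX d fun _ τ ρ => ∀ r₀ (Hu : Un (fun i => sX d (τ i) ρ) δ r₀)
      (_ : Uv (fun i => sX d (τ i) ρ) δ r₀) (_ : Lo (fun i => sX d (τ i) ρ) (Om d t))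
      (_ : Gm (fun i => sX d (τ i) ρ) (Om d t)) (_ : ∀ i, Gb50.Lg d (τ i)) ρ',
      Ca k Hu d.cm ρ' (Om d t) ∧ ∀ x b, NkC k ρ' Hu d.cm x b := by
    rcases H.b0 with b | b
    · refine (EvX.all nk).mono fun ι τ ρ nk r₀ Hu V lo G T ρ' => ?_
      have hb : ∀ i x u, (sX d (τ i) ρ).b x u = 0 := fun i x u => by
        change d.mix (τ i) d.bS (fun z => d.bZ z.1) x u = 0
        simp [Dat.mix, b.1, b.2]
      exact ⟨ca0 Hu _ hk hb lo, fun x b => nkC_of H.ok (Hu.cfOK _ hk (Hu.hb0 hb)) V G lo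
        (th_X τ Hu T) (by linarith [H.δ0, H.δ1.2 x]) (nk (x, b))⟩
    · exact (Lw78.Mv.mov H (b.1 d.x).1 b.2 k).X.mono fun ι τ ρ mo r₀ Hu _ lo _ _ ρ' =>
        ⟨Cap39.cap _ _ _ _ _ _ _ _ _ _ _ _ _ _ _ (fun i => sX d (τ i) ρ) δ r₀ ρ' Hu _ _ hk lo
          (mo_rs mo), fun x _ => nkC_nil (b.1 x).1 (b.1 x).2⟩
  refine (((ev_un H G).and key).and ((EvX.all tm).and (EvX.all ct))).mono
    fun ι τ ρ ⟨⟨⟨⟨lo, G, T⟩, u⟩, key⟩, tm, ct⟩ r₀ r1 r2 q hq ρ' => ?_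
  obtain ⟨Hu, V⟩ := u r₀ r1 r2
  obtain ⟨ca, nk⟩ := key r₀ Hu V lo G T ρ'
  exact ⟨Hu, _, G, cl_eqX H.ok hk (th_X τ Hu T) ca (fun w hw => tm ⟨w, hw⟩) hq nk,
    cr H.ok hk (th_X τ Hu T) ca (fun w hw => tm ⟨w, hw⟩) hq Top11.Cu.cutStmt2 lo ct⟩

theorem seq_X : d.Seq q₀ fun l τ q => ∃ O ∈ l, ∃ ρ, ∃ r₀ : ℝ≥0, 0 < r₀ ∧
    ClR (fun i : O => d.Xs (τ i)) d.cm (fun i => d.εX (τ i) (q i)) δ k (ball 0 ρ) r₀ r₀ :=
  fun _ _ _ _ hτ hq =>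
  let ⟨S, _, hO, b⟩ := qb_cv hq
  let ⟨O, b1, e, ρ, b2, b3⟩ := EvX.seq hτ (cl_X H hk S) hO
  ⟨O, b1, ρ, ⟨ρ / 2, by positivity⟩, half_pos b2, b3 _ (half_pos b2).le (half_lt_self b2) _
    ⟨fun i => b.sub ⟨i, e i.2⟩, fun w => (b.bv w).imp fun _ c i => c ⟨i, e i.2⟩⟩ _⟩

/-- **LEAF LIP-X** -/
theorem lipX : d.LipX q₀ δ k := fun α l τ q hτ hq => by
  obtain ⟨_, hO, _, r₀, r0, b⟩ := seq_X H hk α l τ q hτ hq
  obtain ⟨C, e⟩ := b.lip (by omega)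
  exact ⟨r₀, C, r0, mem_of_superset hO fun i hi => e ⟨i, hi⟩⟩

omit H hk in
variable (δ k) in
/-- bounds for the Banach models of one neck -/
def C1X (τ : d.Ta) (q : Wi →₀ ℝ) (ρ C : ℝ) : Prop := ∀ Hm, d.Rep δ k τ q Hm → C1 Hm ρ C

omit H hk in
theorem C1X.out {τ : d.Ta} {q : Wi →₀ ℝ} {ρ C : ℝ} (b : C1X δ k τ q ρ C) (Hm)
    (e : d.Rep δ k τ q Hm) : ‖fderiv ℝ Hm 0‖ ≤ C ∧
      ∀ v, ‖v‖ ≤ ρ → ‖fderiv ℝ Hm v - fderiv ℝ Hm 0‖ ≤ C * ‖v‖ :=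
  ⟨(b Hm e).1, fun v hv => (b Hm e).2 v hv⟩

/-- **LEAF C11** -/
theorem c11 : d.C11 q₀ δ k := fun α l τ q hτ hq => by
  obtain ⟨O, hO, _, r₀, r0, b⟩ := seq_X H hk α l τ q hτ hq
  obtain ⟨C, e⟩ : ∃ C, ∀ i : O, C1X δ k (τ i) (q i) (min √r₀ r₀) C := b.c11 (by omega)
  exact ⟨min √r₀ r₀, lt_min (Real.sqrt_pos.2 r0) r0, C, mem_of_superset hO fun i hi =>
    C1X.out (τ := τ i) (q := q i) (e ⟨i, hi⟩)⟩

end Crest.Agent.X212.Gla92
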